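import Mathlib

/-!
# P033: no parallelogram relation in the first row of a circulant Hadamard matrix

If `h` is the first row of a circulant Hadamard matrix of order `n` and
`h j * h (j + t) * h (j + g) * h (j + t + g) = 1` for all `j`, where `t ≠ 0`, `g ≠ 0` and
not `t = g = n/2`, then `8 ∣ n`.
-/

namespace Vale.Agent.Results.P033.QuadRelation

open Finset

/-- A product of signs over a finset is a sign. -/
theorem prod_sign_finset {ι : Type*} (S : Finset ι) (x : ι → ℤ)
    (hx : ∀ i, x i = 1 ∨ x i = -1) :
    (∏ i ∈ S, x i) = 1 ∨ (∏ i ∈ S, x i) = -1 := by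
  classical
  induction S using Finset.induction_on with
  | empty => simp
  | insert a S ha ih =>
    rw [prod_insert ha]
    rcases ih with h | h <;> rcases hx a with h' | h' <;> simp [h, h']

/-- The sum of a finite family of signs is congruent to `card + 1 - product` modulo `4`. -/
theorem sign_sum_mod_four_finset {ι : Type*} (S : Finset ι) (x : ι → ℤ)
    (hx : ∀ i, x i = 1 ∨ x i = -1) :
    (4 : ℤ) ∣ (∑ i ∈ S, x i) - ((S.card : ℤ) + 1 - ∏ i ∈ S, x i) := by
  classical
  induction S using Finset.induction_on with
  | empty => simp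
  | insert a S ha ih =>
    rw [sum_insert ha, prod_insert ha, card_insert_of_notMem ha]
    obtain ⟨c, hc⟩ := ih
    rcases prod_sign_finset S x hx with h | h <;> rcases hx a with h' | h'
    · exact ⟨c, by rw [h, h']; rw [h] at hc; push_cast; linarith⟩
    · exact ⟨c - 1, by rw [h, h']; rw [h] at hc; push_cast; linarith⟩
    · exact ⟨c, by rw [h, h']; rw [h] at hc; push_cast; linarith⟩
    · exact ⟨c, by rw [h, h']; rw [h] at hc; push_cast; linarith⟩

theorem result (n : ℕ) [NeZero n] (h : ZMod n → ℤ)
    (hsign : ∀ j, h j = 1 ∨ h j = -1)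
    (hHad : Matrix.of (fun i j : ZMod n => h (j - i))
        * (Matrix.of (fun i j : ZMod n => h (j - i))).transpose
        = (n : ℤ) • (1 : Matrix (ZMod n) (ZMod n) ℤ))
    (t g : ZMod n) (ht : t ≠ 0) (hg : g ≠ 0) (htg : t + g ≠ 0 ∨ t ≠ g)
    (hrel : ∀ j, h j * h (j + t) * h (j + g) * h (j + t + g) = 1) :
    8 ∣ n := by
  classical
  have hsq : ∀ j, h j * h j = 1 := fun j => by rcases hsign j with e | e <;> simp [e]
  -- autocorrelations vanish
  have hauto : ∀ s : ZMod n, s ≠ 0 → ∑ j : ZMod n, h j * h (j + s) = 0 := by
    intro s hs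
    have h1 := congrFun (congrFun hHad 0) (-s)
    simp only [Matrix.mul_apply, Matrix.transpose_apply, Matrix.of_apply, sub_zero,
      sub_neg_eq_add, Matrix.smul_apply, Matrix.one_apply] at h1
    rw [h1]
    have : (0 : ZMod n) ≠ -s := fun e => hs (by rw [← neg_neg s, ← e, neg_zero])
    simp [this]
  set d : ZMod n → ℤ := fun j => h j * h (j + t) with hd_def
  set T : ZMod n → ℤ := fun j => h j * h (j + g) with hT_def
  have hdsign : ∀ j, d j = 1 ∨ d j = -1 := fun j => by
    simp only [hd_def]
    rcases hsign j with e | e <;> rcases hsign (j + t) with e' | e' <;> simp [e, e']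
  have hTsign : ∀ j, T j = 1 ∨ T j = -1 := fun j => by
    simp only [hT_def]
    rcases hsign j with e | e <;> rcases hsign (j + g) with e' | e' <;> simp [e, e']
  -- the product sequence d is g-periodic
  have hdper : ∀ j, d (j + g) = d j := by
    intro j
    have e : d j * d (j + g) = 1 := by
      simp only [hd_def]
      have : j + g + t = j + t + g := by ring
      rw [this, ← hrel j]; ring
    rcases hdsign j with e1 | e1 <;> rcases hdsign (j + g) with e2 | e2 <;>
      rw [e1, e2] at e <;> simp_all
  -- three vanishing sums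
  have S1 : ∑ j : ZMod n, d j = 0 := hauto t ht
  have S2 : ∑ j : ZMod n, T j = 0 := hauto g hg
  have S3 : ∑ j : ZMod n, T j * d j = 0 := by
    have e0 : ∀ j, T j * d j = h (j + t) * h (j + g) := fun j => by
      simp only [hT_def, hd_def]
      linear_combination (h (j + g) * h (j + t)) * hsq j
    rcases htg with hne | hne
    · rw [← hauto (t + g) hne]
      refine Finset.sum_congr rfl fun j _ => ?_
      rw [e0]
      have e1 := hrel j
      have e2 := hsq (j + t + g)
      have : j + (t + g) = j + t + g := by ring
      rw [this]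
      linear_combination
        (-(h (j + t) * h (j + g) * (h (j + t + g) * h (j + t + g)))) * hsq j
          - (h (j + t) * h (j + g)) * e2 + (h j * h (j + t + g)) * e1
    · have hne' : g - t ≠ 0 := fun e => hne (sub_eq_zero.mp e).symm
      rw [← hauto (g - t) hne']
      rw [Finset.sum_congr rfl fun j _ => e0 j]
      refine Fintype.sum_equiv (Equiv.addRight t) _ _ fun j => ?_
      simp only [Equiv.coe_addRight]
      have : j + t + (g - t) = j + g := by ring
      rw [this]
  -- the set where d = 1
  set R : Finset (ZMod n) := Finset.univ.filter (fun j => d j = 1) with hR_def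
  have hRsum : ∑ j ∈ R, T j = 0 := by
    have e : ∑ j : ZMod n, T j * (1 + d j) = 2 * ∑ j ∈ R, T j := by
      rw [hR_def, Finset.sum_filter, Finset.mul_sum]
      refine Finset.sum_congr rfl fun j _ => ?_
      rcases hdsign j with e1 | e1
      · rw [if_pos e1, e1]; ring
      · rw [if_neg (by rw [e1]; norm_num), e1]; ring
    have e' : ∑ j : ZMod n, T j * (1 + d j) = 0 := by
      have : ∀ j, T j * (1 + d j) = T j + T j * d j := fun j => by ring
      rw [Finset.sum_congr rfl fun j _ => this j, Finset.sum_add_distrib, S2, S3]; rfl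
    rw [e'] at e
    linarith
  have hRcard : 2 * (R.card : ℤ) = n := by
    have e : ∑ j : ZMod n, d j = 2 * (R.card : ℤ) - n := by
      have e1 : (R.card : ℤ) = ∑ j : ZMod n, (if d j = 1 then (1 : ℤ) else 0) := by
        rw [hR_def, Finset.card_filter]; push_cast; rfl
      have e2 : ((n : ℕ) : ℤ) = ∑ j : ZMod n, (1 : ℤ) := by
        simp [ZMod.card]
      rw [e1, e2, Finset.mul_sum, ← Finset.sum_sub_distrib]
      refine Finset.sum_congr rfl fun j _ => ?_
      rcases hdsign j with e3 | e3
      · rw [if_pos e3, e3]; ring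
      · rw [if_neg (by rw [e3]; norm_num), e3]; ring
    rw [S1] at e
    linarith
  -- the product of T over R equals 1
  have hRprod : ∏ j ∈ R, T j = 1 := by
    simp only [hT_def]
    rw [Finset.prod_mul_distrib]
    have e : ∏ j ∈ R, h (j + g) = ∏ j ∈ R, h j := by
      refine Finset.prod_equiv (Equiv.addRight g) (fun j => ?_) (fun j _ => rfl)
      simp only [hR_def, Finset.mem_filter, Finset.mem_univ, true_and, Equiv.coe_addRight]
      rw [hdper]
    rw [e]
    rcases prod_sign_finset R h hsign with e1 | e1 <;> rw [e1] <;> norm_num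
  have h4 := sign_sum_mod_four_finset R T hTsign
  rw [hRsum, hRprod] at h4
  obtain ⟨c, hc⟩ := h4
  have : (n : ℤ) = 8 * (-c) := by linarith
  exact Int.natCast_dvd_natCast.mp ⟨-c, by push_cast; exact this⟩

end Vale.Agent.Results.P033.QuadRelation
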