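import Mathlib
import Vale.Agent.Results.P033.QuadRelation

/-!
# P033: the second-order difference of a circulant Hadamard first row is never constant

If `h` is the first row of a circulant Hadamard matrix of order `n` and the product
`h j * h (j + t) * h (j + g) * h (j + t + g)` is the same integer `c` for all `j`, where
`t ≠ 0`, `g ≠ 0` and not `t = g = n/2`, then `8 ∣ n`, or `n = 4` and `c = -1`.
The case `c = 1` is `QuadRelation.result`; the case `c = -1` is reduced to it through the
relations for `(t, 2g)` and `(2t, g)`, except when one shift has order four and the other is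
its double, which is treated directly.
-/

namespace Vale.Agent.Results.P033.ConstSecondDifference

open Finset

/-- Shifted autocorrelations of the first row of a circulant Hadamard matrix vanish. -/
theorem auto_shift (n : ℕ) [NeZero n] (h : ZMod n → ℤ)
    (hHad : Matrix.of (fun i j : ZMod n => h (j - i))
        * (Matrix.of (fun i j : ZMod n => h (j - i))).transpose
        = (n : ℤ) • (1 : Matrix (ZMod n) (ZMod n) ℤ))
    (x y : ZMod n) (hxy : x ≠ y) : ∑ j : ZMod n, h (j + x) * h (j + y) = 0 := by
  have h1 := congrFun (congrFun hHad (-x)) (-y)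
  simp only [Matrix.mul_apply, Matrix.transpose_apply, Matrix.of_apply, sub_neg_eq_add,
    Matrix.smul_apply, Matrix.one_apply] at h1
  rw [h1]
  have : (-x : ZMod n) ≠ -y := fun e => hxy (neg_injective e)
  simp [this]

/-- A sum of products of two four-term sums vanishes if all sixteen partial sums vanish. -/
theorem sum_four_four {ι : Type*} [Fintype ι] (a0 a1 a2 a3 b0 b1 b2 b3 : ι → ℤ)
    (h00 : ∑ j, a0 j * b0 j = 0) (h01 : ∑ j, a0 j * b1 j = 0)
    (h02 : ∑ j, a0 j * b2 j = 0) (h03 : ∑ j, a0 j * b3 j = 0)
    (h10 : ∑ j, a1 j * b0 j = 0) (h11 : ∑ j, a1 j * b1 j = 0)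
    (h12 : ∑ j, a1 j * b2 j = 0) (h13 : ∑ j, a1 j * b3 j = 0)
    (h20 : ∑ j, a2 j * b0 j = 0) (h21 : ∑ j, a2 j * b1 j = 0)
    (h22 : ∑ j, a2 j * b2 j = 0) (h23 : ∑ j, a2 j * b3 j = 0)
    (h30 : ∑ j, a3 j * b0 j = 0) (h31 : ∑ j, a3 j * b1 j = 0)
    (h32 : ∑ j, a3 j * b2 j = 0) (h33 : ∑ j, a3 j * b3 j = 0) :
    ∑ j, (a0 j + a1 j + a2 j + a3 j) * (b0 j + b1 j + b2 j + b3 j) = 0 := by
  have e : ∀ j, (a0 j + a1 j + a2 j + a3 j) * (b0 j + b1 j + b2 j + b3 j)
      = a0 j * b0 j + a0 j * b1 j + a0 j * b2 j + a0 j * b3 j
        + a1 j * b0 j + a1 j * b1 j + a1 j * b2 j + a1 j * b3 j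
        + a2 j * b0 j + a2 j * b1 j + a2 j * b2 j + a2 j * b3 j
        + a3 j * b0 j + a3 j * b1 j + a3 j * b2 j + a3 j * b3 j := fun j => by ring
  simp only [e, Finset.sum_add_distrib, h00, h01, h02, h03, h10, h11, h12, h13, h20, h21, h22,
    h23, h30, h31, h32, h33, add_zero]

/-- In `ZMod n` with `n ≤ 4`, an element of additive order four exists only for `n = 4`. -/
theorem small_case : ∀ n : ℕ, 0 < n → n ≤ 4 →
    ∀ u : ZMod n, u + u + u + u = 0 → u + u ≠ 0 → n = 4 := by
  intro n hpos hle
  interval_cases n <;> decide

/-- A nonzero element of `ZMod n` with `z + z = 0` has `2 * z.val = n`. -/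
theorem two_torsion_val (n : ℕ) [NeZero n] (z : ZMod n) (hz : z ≠ 0) (hz2 : z + z = 0) :
    z.val + z.val = n := by
  have e : ((z.val + z.val : ℕ) : ZMod n) = 0 := by
    push_cast
    rw [ZMod.natCast_zmod_val]
    exact hz2
  have hdvd : n ∣ z.val + z.val := (ZMod.natCast_eq_zero_iff _ n).mp e
  have hlt : z.val < n := ZMod.val_lt z
  have hpos : 0 < z.val := by
    rcases Nat.eq_zero_or_pos z.val with e0 | e0
    · exact absurd ((ZMod.val_eq_zero z).mp e0) hz
    · exact e0
  obtain ⟨k, hk⟩ := hdvd
  have hk1 : k = 1 := by
    rcases k with _ | _ | k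
    · omega
    · rfl
    · have : n * (k + 1 + 1) ≥ n * 2 := Nat.mul_le_mul_left n (by omega)
      omega
  rw [hk, hk1, mul_one]

/-- The case where the shift `u` has order four and the other shift is `2u`. -/
theorem order_four_case (n : ℕ) [NeZero n] (h : ZMod n → ℤ)
    (hsign : ∀ j, h j = 1 ∨ h j = -1)
    (hHad : Matrix.of (fun i j : ZMod n => h (j - i))
        * (Matrix.of (fun i j : ZMod n => h (j - i))).transpose
        = (n : ℤ) • (1 : Matrix (ZMod n) (ZMod n) ℤ))
    (u : ZMod n) (hu4 : u + u + u + u = 0) (hu2 : u + u ≠ 0)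
    (hrel : ∀ j, h j * h (j + u) * h (j + u + u) * h (j + u + u + u) = -1) :
    8 ∣ n ∨ n = 4 := by
  classical
  by_cases hs : ∃ s : ZMod n, s ≠ 0 ∧ s ≠ u ∧ s ≠ u + u ∧ s ≠ u + u + u
  · left
    obtain ⟨s, hs0, hs1, hs2, hs3⟩ := hs
    set F : ZMod n → ℤ := fun j => h j + h (j + u) + h (j + u + u) + h (j + u + u + u)
      with hF_def
    have hFsign : ∀ j, F j = 2 ∨ F j = -2 := by
      intro j
      have e := hrel j
      simp only [hF_def]
      rcases hsign j with e0 | e0 <;> rcases hsign (j + u) with e1 | e1 <;>
        rcases hsign (j + u + u) with e2 | e2 <;>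
        rcases hsign (j + u + u + u) with e3 | e3 <;>
        rw [e0, e1, e2, e3] at e ⊢ <;> norm_num at e <;> norm_num
    have hFper : ∀ j, F (j + u) = F j := by
      intro j
      simp only [hF_def]
      have e4 : j + u + u + u + u = j := by linear_combination hu4
      rw [e4]; ring
    -- the correlation of `F` with its shift by `s` vanishes
    have hFF : ∑ j : ZMod n, F j * F (j + s) = 0 := by
      have key := auto_shift n h hHad
      have ne : ∀ x y : ZMod n, (x = 0 ∨ x = u ∨ x = u + u ∨ x = u + u + u) →
          (y = s ∨ y = s + u ∨ y = s + (u + u) ∨ y = s + (u + u + u)) → x ≠ y := by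
        rintro x y (rfl | rfl | rfl | rfl) (rfl | rfl | rfl | rfl) e <;>
        first
          | exact hs0 (by linear_combination -e)
          | exact hs1 (by linear_combination -e)
          | exact hs2 (by linear_combination -e)
          | exact hs3 (by linear_combination -e)
          | exact hs3 (by linear_combination -e - hu4)
          | exact hs2 (by linear_combination -e - hu4)
          | exact hs1 (by linear_combination -e - hu4)
      have e1 : ∀ j, F j = h (j + 0) + h (j + u) + h (j + (u + u)) + h (j + (u + u + u)) :=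
        fun j => by simp only [hF_def, add_assoc, add_zero]
      have e2 : ∀ j, F (j + s)
          = h (j + s) + h (j + (s + u)) + h (j + (s + (u + u))) + h (j + (s + (u + u + u))) :=
        fun j => by simp only [hF_def, add_assoc]
      have e3 : ∀ j, F j * F (j + s)
          = (h (j + 0) + h (j + u) + h (j + (u + u)) + h (j + (u + u + u)))
            * (h (j + s) + h (j + (s + u)) + h (j + (s + (u + u))) + h (j + (s + (u + u + u)))) :=
        fun j => by rw [e2 j, e1 j]
      rw [Finset.sum_congr rfl fun j _ => e3 j]
      have m0 : (0 : ZMod n) = 0 ∨ (0 : ZMod n) = u ∨ (0 : ZMod n) = u + u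
          ∨ (0 : ZMod n) = u + u + u := Or.inl rfl
      have m1 : u = 0 ∨ u = u ∨ u = u + u ∨ u = u + u + u := Or.inr (Or.inl rfl)
      have m2 : u + u = 0 ∨ u + u = u ∨ u + u = u + u ∨ u + u = u + u + u :=
        Or.inr (Or.inr (Or.inl rfl))
      have m3 : u + u + u = 0 ∨ u + u + u = u ∨ u + u + u = u + u ∨ u + u + u = u + u + u :=
        Or.inr (Or.inr (Or.inr rfl))
      have k0 : s = s ∨ s = s + u ∨ s = s + (u + u) ∨ s = s + (u + u + u) := Or.inl rfl
      have k1 : s + u = s ∨ s + u = s + u ∨ s + u = s + (u + u) ∨ s + u = s + (u + u + u) :=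
        Or.inr (Or.inl rfl)
      have k2 : s + (u + u) = s ∨ s + (u + u) = s + u ∨ s + (u + u) = s + (u + u)
          ∨ s + (u + u) = s + (u + u + u) := Or.inr (Or.inr (Or.inl rfl))
      have k3 : s + (u + u + u) = s ∨ s + (u + u + u) = s + u ∨ s + (u + u + u) = s + (u + u)
          ∨ s + (u + u + u) = s + (u + u + u) := Or.inr (Or.inr (Or.inr rfl))
      exact sum_four_four _ _ _ _ _ _ _ _
        (key _ _ (ne _ _ m0 k0)) (key _ _ (ne _ _ m0 k1))
        (key _ _ (ne _ _ m0 k2)) (key _ _ (ne _ _ m0 k3))
        (key _ _ (ne _ _ m1 k0)) (key _ _ (ne _ _ m1 k1))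
        (key _ _ (ne _ _ m1 k2)) (key _ _ (ne _ _ m1 k3))
        (key _ _ (ne _ _ m2 k0)) (key _ _ (ne _ _ m2 k1))
        (key _ _ (ne _ _ m2 k2)) (key _ _ (ne _ _ m2 k3))
        (key _ _ (ne _ _ m3 k0)) (key _ _ (ne _ _ m3 k1))
        (key _ _ (ne _ _ m3 k2)) (key _ _ (ne _ _ m3 k3))
    -- the set where `F` agrees with its shift
    set R : Finset (ZMod n) := Finset.univ.filter (fun j => F j = F (j + s)) with hR_def
    have hRcard : 2 * (R.card : ℤ) = n := by
      have e : ∑ j : ZMod n, F j * F (j + s) = 8 * (R.card : ℤ) - 4 * n := by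
        have e1 : (R.card : ℤ) = ∑ j : ZMod n, (if F j = F (j + s) then (1 : ℤ) else 0) := by
          rw [hR_def, Finset.card_filter]; push_cast; rfl
        have e2 : ((n : ℕ) : ℤ) = ∑ j : ZMod n, (1 : ℤ) := by
          simp [ZMod.card]
        rw [e1, e2, Finset.mul_sum, Finset.mul_sum, ← Finset.sum_sub_distrib]
        refine Finset.sum_congr rfl fun j _ => ?_
        by_cases hj : F j = F (j + s)
        · rw [if_pos hj, ← hj]
          rcases hFsign j with e3 | e3 <;> rw [e3] <;> norm_num
        · rw [if_neg hj]
          rcases hFsign j with e3 | e3 <;> rcases hFsign (j + s) with e4 | e4 <;>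
            rw [e3, e4] at hj ⊢ <;> first | exact absurd rfl hj | norm_num
      rw [hFF] at e
      linarith
    have hRinv : ∀ j, j ∈ R ↔ j + u ∈ R := by
      intro j
      simp only [hR_def, Finset.mem_filter, Finset.mem_univ, true_and]
      have e1 : j + u + s = j + s + u := by ring
      rw [e1, hFper, hFper]
    set T : ZMod n → ℤ := fun j => h j * h (j + u) with hT_def
    have hTsign : ∀ j, T j = 1 ∨ T j = -1 := fun j => by
      simp only [hT_def]
      rcases hsign j with e | e <;> rcases hsign (j + u) with e' | e' <;> simp [e, e']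
    have hRprod : ∏ j ∈ R, T j = 1 := by
      simp only [hT_def]
      rw [Finset.prod_mul_distrib]
      have e : ∏ j ∈ R, h (j + u) = ∏ j ∈ R, h j := by
        refine Finset.prod_equiv (Equiv.addRight u) (fun j => ?_) (fun j _ => rfl)
        simp only [Equiv.coe_addRight]
        exact hRinv j
      rw [e]
      rcases QuadRelation.prod_sign_finset R h hsign with e1 | e1 <;> rw [e1] <;> norm_num
    have hTanti : ∀ j, T (j + (u + u)) = -T j := by
      intro j
      have e := hrel j
      simp only [hT_def]
      have a1 : j + (u + u) = j + u + u := by ring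
      have a2 : j + u + u + u = j + u + u + u := rfl
      rw [a1]
      rcases hsign j with e0 | e0 <;> rcases hsign (j + u) with e1 | e1 <;>
        rcases hsign (j + u + u) with e2 | e2 <;>
        rcases hsign (j + u + u + u) with e3 | e3 <;>
        rw [e0, e1, e2, e3] at e ⊢ <;> norm_num at e <;> norm_num
    have hRsum : ∑ j ∈ R, T j = 0 := by
      have e : ∑ j ∈ R, T (j + (u + u)) = ∑ j ∈ R, T j := by
        refine Finset.sum_equiv (Equiv.addRight (u + u)) (fun j => ?_) (fun j _ => rfl)
        simp only [Equiv.coe_addRight]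
        have a1 : j + (u + u) = j + u + u := by ring
        rw [a1, ← hRinv, ← hRinv]
      have e' : ∑ j ∈ R, T (j + (u + u)) = -∑ j ∈ R, T j := by
        rw [← Finset.sum_neg_distrib]
        exact Finset.sum_congr rfl fun j _ => hTanti j
      rw [e'] at e
      linarith
    have h4 := QuadRelation.sign_sum_mod_four_finset R T hTsign
    rw [hRsum, hRprod] at h4
    obtain ⟨c, hc⟩ := h4
    have : (n : ℤ) = 8 * (-c) := by linarith
    exact Int.natCast_dvd_natCast.mp ⟨-c, by push_cast; exact this⟩
  · right
    push Not at hs
    have hsub : (Finset.univ : Finset (ZMod n)) ⊆ {0, u, u + u, u + u + u} := by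
      intro s _
      simp only [Finset.mem_insert, Finset.mem_singleton]
      by_cases h0 : s = 0
      · exact Or.inl h0
      by_cases h1 : s = u
      · exact Or.inr (Or.inl h1)
      by_cases h2 : s = u + u
      · exact Or.inr (Or.inr (Or.inl h2))
      exact Or.inr (Or.inr (Or.inr (hs s h0 h1 h2)))
    have hcard : n ≤ 4 := by
      have e1 := Finset.card_le_card hsub
      rw [Finset.card_univ, ZMod.card] at e1
      have e2 : ({0, u, u + u, u + u + u} : Finset (ZMod n)).card ≤ 4 := by
        refine (Finset.card_insert_le _ _).trans ?_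
        refine Nat.succ_le_succ ((Finset.card_insert_le _ _).trans ?_)
        refine Nat.succ_le_succ ((Finset.card_insert_le _ _).trans ?_)
        simp
      omega
    exact small_case n (NeZero.pos n) hcard u hu4 hu2

theorem result (n : ℕ) [NeZero n] (h : ZMod n → ℤ)
    (hsign : ∀ j, h j = 1 ∨ h j = -1)
    (hHad : Matrix.of (fun i j : ZMod n => h (j - i))
        * (Matrix.of (fun i j : ZMod n => h (j - i))).transpose
        = (n : ℤ) • (1 : Matrix (ZMod n) (ZMod n) ℤ))
    (t g : ZMod n) (ht : t ≠ 0) (hg : g ≠ 0) (htg : t + g ≠ 0 ∨ t ≠ g) (c : ℤ)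
    (hrel : ∀ j, h j * h (j + t) * h (j + g) * h (j + t + g) = c) :
    8 ∣ n ∨ (n = 4 ∧ c = -1) := by
  classical
  have hsq : ∀ j, h j * h j = 1 := fun j => by rcases hsign j with e | e <;> simp [e]
  have hc : c = 1 ∨ c = -1 := by
    have e := hrel 0
    rcases hsign 0 with e0 | e0 <;> rcases hsign (0 + t) with e1 | e1 <;>
      rcases hsign (0 + g) with e2 | e2 <;> rcases hsign (0 + t + g) with e3 | e3 <;>
      rw [e0, e1, e2, e3] at e <;> rw [← e] <;> norm_num
  rcases hc with rfl | rfl
  · exact Or.inl (QuadRelation.result n h hsign hHad t g ht hg htg hrel)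
  · -- the relation with value `-1` gives relations with value `1` for `(t, 2g)` and `(2t, g)`
    have rel1 : ∀ j, h j * h (j + t) * h (j + (g + g)) * h (j + t + (g + g)) = 1 := by
      intro j
      have e1 := hrel j
      have e2 := hrel (j + g)
      have a1 : j + g + t = j + t + g := by ring
      have a2 : j + g + g = j + (g + g) := by ring
      have a3 : j + t + g + g = j + t + (g + g) := by ring
      rw [a1, a2, a3] at e2
      have s1 := hsq (j + g)
      have s2 := hsq (j + t + g)
      linear_combination
        (-(h j * h (j + t) * h (j + (g + g)) * h (j + t + (g + g)))) * s1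
          - (h j * h (j + t) * h (j + (g + g)) * h (j + t + (g + g)) * h (j + g) * h (j + g))
            * s2
          + (h (j + g) * h (j + t + g) * h (j + (g + g)) * h (j + t + (g + g))) * e1 - e2
    have rel2 : ∀ j, h j * h (j + (t + t)) * h (j + g) * h (j + (t + t) + g) = 1 := by
      intro j
      have e1 := hrel j
      have e2 := hrel (j + t)
      have a1 : j + t + t = j + (t + t) := by ring
      have a2 : j + (t + t) + g = j + (t + t) + g := rfl
      have a3 : j + t + t + g = j + (t + t) + g := by ring
      rw [a3, a1] at e2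
      have s1 := hsq (j + t)
      have s2 := hsq (j + t + g)
      linear_combination
        (-(h j * h (j + (t + t)) * h (j + g) * h (j + (t + t) + g))) * s1
          - (h j * h (j + (t + t)) * h (j + g) * h (j + (t + t) + g) * h (j + t) * h (j + t))
            * s2
          + (h (j + t) * h (j + (t + t)) * h (j + t + g) * h (j + (t + t) + g)) * e1 - e2
    by_cases h2g : g + g = 0
    · by_cases h2t : t + t = 0
      · -- both shifts are the element of order two: excluded by `htg`
        exfalso
        have e1 := two_torsion_val n t ht h2t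
        have e2 := two_torsion_val n g hg h2g
        have etg : t = g := ZMod.val_injective n (by omega)
        rcases htg with h1 | h1
        · exact h1 (by rw [etg]; exact h2g)
        · exact h1 etg
      · by_cases hc1 : t + t = g
        · -- `g = 2t` and `4t = 0`
          have hu4 : t + t + t + t = 0 := by
            have : (t + t) + (t + t) = 0 := by rw [hc1]; exact h2g
            linear_combination this
          have hrel' : ∀ j, h j * h (j + t) * h (j + t + t) * h (j + t + t + t) = -1 := by
            intro j
            have e := hrel j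
            rw [← hc1] at e
            have a1 : j + (t + t) = j + t + t := by ring
            have a2 : j + t + (t + t) = j + t + t + t := by ring
            rw [a1, a2] at e
            exact e
          rcases order_four_case n h hsign hHad t hu4 h2t hrel' with h8 | h4
          · exact Or.inl h8
          · exact Or.inr ⟨h4, rfl⟩
        · exact Or.inl (QuadRelation.result n h hsign hHad (t + t) g h2t hg (Or.inr hc1) rel2)
    · by_cases hc2 : t = g + g
      · by_cases h4g : g + g + g + g = 0
        · -- `t = 2g` and `4g = 0`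
          have hrel' : ∀ j, h j * h (j + g) * h (j + g + g) * h (j + g + g + g) = -1 := by
            intro j
            have e := hrel j
            rw [hc2] at e
            have a1 : j + (g + g) = j + g + g := by ring
            rw [a1] at e
            linear_combination e
          rcases order_four_case n h hsign hHad g h4g h2g hrel' with h8 | h4
          · exact Or.inl h8
          · exact Or.inr ⟨h4, rfl⟩
        · have hne : t + (g + g) ≠ 0 := by
            intro e
            apply h4g
            rw [hc2] at e
            linear_combination e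
          exact Or.inl (QuadRelation.result n h hsign hHad t (g + g) ht h2g (Or.inl hne) rel1)
      · exact Or.inl (QuadRelation.result n h hsign hHad t (g + g) ht h2g (Or.inr hc2) rel1)

end Vale.Agent.Results.P033.ConstSecondDifference
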