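import Mathlib
import Vale.Agent.Lib.P033.Core

/-!
# P033: a structural restriction on circulant Hadamard matrices

If `h` is the first row of a circulant Hadamard matrix of even order `n` and the sign sequence
`j ↦ h j * h (j + n/2)` is invariant under translation by some `g ∉ {0, n/2}` of `ZMod n`,
then `16 ∣ n` and `4 ∣ g`.
-/

namespace Vale.Agent.Results.P033.HalfShiftPeriod

open Finset Vale.Agent.Lib.P033

theorem sum_zmod_eq_sum_range (n : ℕ) [NeZero n] (F : ZMod n → ℤ) :
    ∑ j : ZMod n, F j = ∑ i ∈ range n, F (i : ZMod n) := by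
  rw [← Fin.sum_univ_eq_sum_range (fun i => F (i : ZMod n)) n]
  refine (Fintype.sum_equiv (ZMod.finEquiv n).toEquiv _ _ fun x => ?_).symm
  congr 1
  cases n with
  | zero => exact absurd rfl (NeZero.ne 0)
  | succ k => exact (Fin.cast_val_eq_self x)

theorem result (n : ℕ) [NeZero n] (hn : Even n) (h : ZMod n → ℤ)
    (hsign : ∀ j, h j = 1 ∨ h j = -1)
    (hHad : Matrix.of (fun i j : ZMod n => h (j - i))
        * (Matrix.of (fun i j : ZMod n => h (j - i))).transpose
        = (n : ℤ) • (1 : Matrix (ZMod n) (ZMod n) ℤ))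
    (g : ZMod n) (hg0 : g ≠ 0) (hgm : g ≠ ((n / 2 : ℕ) : ZMod n))
    (hper : ∀ j, h (j + g) * h (j + g + ((n / 2 : ℕ) : ZMod n))
        = h j * h (j + ((n / 2 : ℕ) : ZMod n))) :
    16 ∣ n ∧ 4 ∣ g.val := by
  obtain ⟨m, hm⟩ := hn
  have hn0 : n ≠ 0 := NeZero.ne n
  have hmpos : 0 < m := by omega
  have hn2 : n = 2 * m := by omega
  have hhalf : n / 2 = m := by omega
  rw [hhalf] at hgm hper
  -- twice the half shift is zero
  have hmm : ((m : ℕ) : ZMod n) + (m : ZMod n) = 0 := by
    rw [← Nat.cast_add, ← two_mul, ← hn2]; exact ZMod.natCast_self n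
  -- the natural-number indexed sequence
  set b : ℕ → ℤ := fun i => h (i : ZMod n) with hb_def
  have hb : ∀ i, b i = 1 ∨ b i = -1 := fun i => hsign _
  -- autocorrelations
  have hauto : ∀ t : ZMod n, t ≠ 0 → ∑ j : ZMod n, h j * h (j + t) = 0 := by
    intro t ht
    have h1 := congrFun (congrFun hHad 0) (-t)
    simp only [Matrix.mul_apply, Matrix.transpose_apply, Matrix.of_apply, sub_zero,
      sub_neg_eq_add, Matrix.smul_apply, Matrix.one_apply] at h1
    rw [h1]
    have : (0 : ZMod n) ≠ -t := fun e => ht (by rw [← neg_neg t, ← e, neg_zero])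
    simp [this]
  have hP : ∀ t, 0 < t → t < n → ∑ i ∈ range n, b i * b (i + t) = 0 := by
    intro t ht0 htn
    have ht : ((t : ℕ) : ZMod n) ≠ 0 := by
      rw [Ne, ZMod.natCast_eq_zero_iff]
      exact fun hdiv => absurd (Nat.le_of_dvd ht0 hdiv) (by omega)
    have := hauto t ht
    rw [sum_zmod_eq_sum_range] at this
    rw [← this]
    refine sum_congr rfl fun i _ => ?_
    simp only [hb_def, Nat.cast_add]
  -- the half-shift product and its group of periods
  set D : ZMod n → ℤ := fun x => h x * h (x + (m : ZMod n)) with hD_def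
  let S : AddSubgroup (ZMod n) :=
    { carrier := {p | ∀ x, D (x + p) = D x}
      zero_mem' := fun x => by simp
      add_mem' := fun {p p'} hp hp' x => by
        have : x + (p + p') = (x + p) + p' := by ring
        rw [this, hp' (x + p), hp x]
      neg_mem' := fun {p} hp x => by
        have := hp (x + -p)
        rw [neg_add_cancel_right] at this
        exact this.symm }
  have hgS : g ∈ S := fun x => hper x
  have hmS : (m : ZMod n) ∈ S := fun x => by
    simp only [hD_def]
    rw [add_assoc, hmm, add_zero]; ring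
  -- a period dividing m
  set g' := Nat.gcd g.val m with hg'_def
  have hg'S : ((g' : ℕ) : ZMod n) ∈ S := by
    have hbez : ((g' : ℕ) : ℤ) = (g.val : ℤ) * Nat.gcdA g.val m + (m : ℤ) * Nat.gcdB g.val m :=
      Nat.gcd_eq_gcd_ab g.val m
    have hcast : ((g' : ℕ) : ZMod n)
        = (Nat.gcdA g.val m) • g + (Nat.gcdB g.val m) • ((m : ℕ) : ZMod n) := by
      have := congrArg (fun z : ℤ => (z : ZMod n)) hbez
      simp only [Int.cast_natCast, Int.cast_add, Int.cast_mul, ZMod.natCast_zmod_val] at this
      rw [this]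
      simp only [zsmul_eq_mul]
      ring
    rw [hcast]
    exact S.add_mem (S.zsmul_mem hgS _) (S.zsmul_mem hmS _)
  have hg'dvd : g' ∣ m := Nat.gcd_dvd_right _ _
  have hg'pos : 0 < g' := Nat.gcd_pos_of_pos_right _ hmpos
  obtain ⟨q, hq⟩ := hg'dvd
  have hgval : g.val < n := ZMod.val_lt g
  have hq2 : 2 ≤ q := by
    by_contra hlt
    have hq1 : q = 1 := by
      rcases Nat.lt_or_ge q 1 with h0 | h1
      · have : q = 0 := by omega
        rw [this] at hq; omega
      · omega
    rw [hq1, Nat.mul_one] at hq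
    -- then m divides g.val, so g is 0 or m
    have hdv : m ∣ g.val := by
      have := Nat.gcd_dvd_left g.val m
      rw [← hg'_def, ← hq] at this
      exact this
    obtain ⟨c, hc⟩ := hdv
    have hc2 : c < 2 := by
      by_contra hc2
      have : m * 2 ≤ m * c := Nat.mul_le_mul_left m (by omega)
      omega
    have hgcast : g = ((g.val : ℕ) : ZMod n) := (ZMod.natCast_zmod_val g).symm
    rcases Nat.lt_or_ge c 1 with h0 | h1
    · have : c = 0 := by omega
      rw [this, Nat.mul_zero] at hc
      exact hg0 (by rw [hgcast, hc]; simp)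
    · have : c = 1 := by omega
      rw [this, Nat.mul_one] at hc
      exact hgm (by rw [hgcast, hc])
  -- apply the core computation
  have hnq : n = 2 * (g' * q) := by rw [← hq]; exact hn2
  have hperb : ∀ i, b (i + 2 * (g' * q)) = b i := fun i => by
    simp only [hb_def]
    rw [← hnq, Nat.cast_add, ZMod.natCast_self, add_zero]
  have hP' : ∀ t, 0 < t → t < 2 * (g' * q) →
      ∑ i ∈ range (2 * (g' * q)), b i * b (i + t) = 0 := by
    intro t ht0 htn
    rw [← hnq] at htn ⊢
    exact hP t ht0 htn
  have hd' : ∀ i, b (i + g') * b (i + g' + g' * q) = b i * b (i + g' * q) := by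
    intro i
    have := hg'S (i : ZMod n)
    simp only [hD_def] at this
    simp only [hb_def, Nat.cast_add]
    rw [← hq]
    exact this
  obtain ⟨h8, h4⟩ := core g' q hq2 hg'pos b hb hperb hP' hd'
  constructor
  · have h8' : (8 : ℕ) ∣ g' * q := by exact_mod_cast h8
    rw [hnq]
    obtain ⟨c, hc⟩ := h8'
    exact ⟨c, by rw [hc]; ring⟩
  · have h4' : (4 : ℕ) ∣ g' := by exact_mod_cast h4
    exact dvd_trans h4' (Nat.gcd_dvd_left _ _)

end Vale.Agent.Results.P033.HalfShiftPeriod
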